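import Vale.Agent.P352X.Main0
import Vale.Agent.P352X.Api3a
import Vale.Agent.P352X.R.Br

/-!
# P352X, row CONM, part A: real test functions, factorization of `w(T(h,k), Θ)` (helper90)
-/

set_option linter.all false

open MeasureTheory Filter Topology Set
open scoped SchwartzMap ComplexConjugate ContDiff

namespace Vale.Agent.P352X.Conm

open Vale.Agent.P352 Vale.Agent.P352.GF Vale.Agent.P352.BW Vale.Agent.P352.H246
open Vale.Agent.P352.H496 Vale.Agent.P352.H755 Vale.Agent.P352.H15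
open UniformSpace (Completion)
open Complex (I)

noncomputable section

section tst

variable {E F : Type*} [NormedAddCommGroup E] [NormedSpace ℝ E] [NormedAddCommGroup F]
  [NormedSpace ℝ F]

lemma sch_ap {G : E → ℂ} (h : Dc G) (x : E) : sch G x = G x := by
  have e : ∃ g : 𝓢(E, ℂ), ∀ x, g x = G x := ⟨h.2.toSchwartzMap h.1, fun _ => rfl⟩
  rw [sch, dif_pos e]
  exact e.choose_spec x

lemma dc_cx {g : E → ℝ} (h : Tst g) : Dc (cx g) :=
  ⟨Complex.ofRealCLM.contDiff.comp h.1, h.2.comp_left (g := fun t : ℝ => (t : ℂ)) rfl⟩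

lemma tsupp_cx (g : E → ℝ) : tsupport (cx g) = tsupport g := by
  unfold tsupport
  congr 1
  ext x
  simp [cx]

lemma tst_mul_r {g u : E → ℝ} (h : Tst g) (hu : ContDiff ℝ ∞ u) : Tst fun x => g x * u x :=
  ⟨h.1.mul hu, h.2.mul_right⟩

lemma tst_mul_l {g u : E → ℝ} (hu : ContDiff ℝ ∞ u) (h : Tst g) : Tst fun x => u x * g x :=
  ⟨hu.mul h.1, h.2.mul_left⟩

lemma tst_add {g u : E → ℝ} (h : Tst g) (hu : Tst u) : Tst fun x => g x + u x :=
  ⟨h.1.add hu.1, h.2.add hu.2⟩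

lemma tst_sub {g u : E → ℝ} (h : Tst g) (hu : Tst u) : Tst fun x => g x - u x :=
  ⟨h.1.sub hu.1, h.2.sub hu.2⟩

lemma tst_prod {g : E → ℝ} {u : F → ℝ} (h : Tst g) (hu : Tst u) :
    Tst fun z : E × F => g z.1 * u z.2 := by
  refine ⟨(h.1.comp contDiff_fst).mul (hu.1.comp contDiff_snd), ?_⟩
  refine HasCompactSupport.intro (h.2.isCompact.prod hu.2.isCompact) fun z hz => ?_
  by_cases h1 : z.1 ∈ tsupport g
  · rw [image_eq_zero_of_notMem_tsupport (f := u) fun h2 => hz ⟨h1, h2⟩, mul_zero]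
  · rw [image_eq_zero_of_notMem_tsupport h1, zero_mul]

lemma tst_comp {g : F → ℝ} (h : Tst g) (e : E ≃L[ℝ] F) : Tst fun x => g (e x) :=
  ⟨h.1.comp e.contDiff, h.2.comp_homeomorph e.toHomeomorph⟩

lemma tst_fd {g : E → ℝ} (h : Tst g) (v : E) : Tst fun x => fderiv ℝ g x v :=
  ⟨(h.1.fderiv_right (m := ∞) (by exact_mod_cast le_top)).clm_apply contDiff_const,
    h.2.fderiv_apply ℝ v⟩

lemma tst_diff {g : E → ℝ} (h : Tst g) : Differentiable ℝ g := h.1.differentiable (by simp)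

end tst

/-- `g(al, x) φ(be)` -/
def rp (g : P3 → ℝ) (φ : ℝ → ℝ) : V → ℝ := fun z => g (pl z) * φ (be z)

lemma pr_eq (g : P3 → ℝ) (φ : ℝ → ℝ) : pr g φ = cx (rp g φ) := rfl

lemma tst_rp {g : P3 → ℝ} {φ : ℝ → ℝ} (hg : Tst g) (hφ : Tst φ) : Tst (rp g φ) :=
  tst_comp (tst_prod hg hφ) plE

lemma supp_rp {g : P3 → ℝ} {φ : ℝ → ℝ} {z : V} (hz : z ∈ tsupport (rp g φ)) :
    pl z ∈ tsupport g ∧ be z ∈ tsupport φ := by
  have hc : IsClosed {z : V | pl z ∈ tsupport g ∧ be z ∈ tsupport φ} :=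
    ((isClosed_tsupport g).preimage cont_pl).inter ((isClosed_tsupport φ).preimage cont_be)
  refine closure_minimal (fun z hz => ?_) hc hz
  have := mul_ne_zero_iff.1 hz
  exact ⟨subset_tsupport _ this.1, subset_tsupport _ this.2⟩

/-- real test functions as Schwartz functions -/
def sr (g : V → ℝ) : Sch := sch (cx g)

lemma ev_sr {g : V → ℝ} (h : Tst g) : ev (sr g) = cx g := funext (sch_ap (dc_cx h))

lemma test_cx {g : V → ℝ} (h : Tst g) : IsTest (cx g) := ⟨_, ev_sr h⟩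

lemma bar_cx (g : V → ℝ) : bar (cx g) = cx g := by
  funext x
  simp [bar, cx]

lemma tsupp_sr {g : V → ℝ} (h : Tst g) : tsupport (sr g) = tsupport g := by
  rw [← tsupp_cx, ← ev_sr h]
  rfl

lemma in_cx {g : V → ℝ} {O : Set V} (h : Tst g) (hO : tsupport g ⊆ O) : In O (cx g) :=
  ⟨test_cx h, (dc_cx h).2, by rwa [tsupp_cx]⟩

/-- products of real test functions -/
def PP (g u : V → ℝ) : S2 := sch (cx fun z : V × V => g z.1 * u z.2)

lemma PP_ap {g u : V → ℝ} (hg : Tst g) (hu : Tst u) (z : V × V) :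
    PP g u z = ((g z.1 * u z.2 : ℝ) : ℂ) := sch_ap (dc_cx (tst_prod hg hu)) z

lemma PP_cs {g u : V → ℝ} (hg : Tst g) (hu : Tst u) : HasCompactSupport (PP g u) := by
  have : (PP g u : V × V → ℂ) = cx fun z : V × V => g z.1 * u z.2 := funext (PP_ap hg hu)
  rw [this]
  exact (dc_cx (tst_prod hg hu)).2

variable {D : Type*} [NormedAddCommGroup D] [InnerProductSpace ℂ D] {c : Ctx D}

/-- `w(T(h,k), Θ)` -/
def wT (w : I2 → I2 → S2 →L[ℂ] Completion D) (h k : V) : S2 →L[ℂ] Completion D :=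
  ∑ m, ∑ n, ∑ j, ((eta m * h m * (eta n * k n) * eta j : ℝ) : ℂ) • w (m, n) (j, j)

lemma wT_ap (w : I2 → I2 → S2 →L[ℂ] Completion D) (h k : V) (F : S2) : wT w h k F =
    ∑ m, ∑ n, ∑ j, ((eta m * h m * (eta n * k n) * eta j : ℝ) : ℂ) • w (m, n) (j, j) F := by
  simp only [wT, ContinuousLinearMap.sum_apply, ContinuousLinearMap.smul_apply]

lemma w0_eq (w : I2 → I2 → S2 →L[ℂ] Completion D) (F : S2) : w0 w F = wT w va va F :=
  (wT_ap w va va F).symm

lemma wT_symm {e : Bool} {w : I2 → I2 → S2 →L[ℂ] Completion D} (hw : TP2 c.Q c.T e w) (h k : V) :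
    wT w h k = wT w k h := by
  unfold wT
  rw [Finset.sum_comm]
  refine Finset.sum_congr rfl fun m _ => Finset.sum_congr rfl fun n _ =>
    Finset.sum_congr rfl fun j _ => ?_
  rw [hw.ind (n, m)]
  congr 2
  ring

lemma T_fld (c : Ctx D) (m n : Ix) : c.Q.fld (c.T m n) := c.Q.bose_fld _ (c.hT.bose m n)

lemma T_smul (c : Ctx D) (m n : Ix) (a : ℂ) {f : Fn} (hf : IsTest f) (v : D) :
    c.T m n (fun x => a * f x) v = a • c.T m n f v := by
  have h0 : IsTest fun _ => (0 : ℂ) := ⟨0, rfl⟩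
  have e0 : c.T m n (fun _ => (0 : ℂ)) v = 0 := by
    have := c.Q.lin _ _ _ 1 v (T_fld c m n) h0 h0
    simp only [mul_zero, add_zero, one_smul] at this
    exact left_eq_add.1 this
  have := c.Q.lin _ _ _ a v (T_fld c m n) h0 hf
  simpa [e0] using this

lemma Tf_hk (c : Ctx D) (h k : V) {f : Fn} (hf : IsTest f) (v : D) : c.Tf (hk h k f) v =
    ∑ m, ∑ n, ((eta m * h m * (eta n * k n) : ℝ) : ℂ) • c.T m n f v :=
  Finset.sum_congr rfl fun m _ => Finset.sum_congr rfl fun n _ => T_smul c m n _ hf v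

lemma Thf_eq (c : Ctx D) (f : Fn) (v : D) :
    c.Thf f v = ∑ j, ((eta j : ℝ) : ℂ) • c.T j j f v := rfl

lemma herm' (c : Ctx D) (m n : Ix) {f : Fn} (hf : IsTest f) (v u : D) :
    inner ℂ v (c.T m n f u) = inner ℂ (c.T m n (bar f) v) u := by
  rw [c.hT.herm m n _ v u (isTest_bar hf), bar_bar]

lemma Thf_herm (c : Ctx D) {f : Fn} (hf : IsTest f) (v u : D) :
    inner ℂ (c.Thf f v) u = inner ℂ v (c.Thf (bar f) u) := by
  simp only [Thf_eq, sum_inner, inner_sum, inner_smul_left, inner_smul_right, Complex.conj_ofReal,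
    c.hT.herm _ _ _ _ _ hf]

lemma Tf_herm (c : Ctx D) (h k : V) {f : Fn} (hf : IsTest f) (v u : D) :
    inner ℂ (c.Tf (hk h k f) v) u = inner ℂ v (c.Tf (hk h k (bar f)) u) := by
  simp only [Tf_hk c h k hf, Tf_hk c h k (isTest_bar hf), sum_inner, inner_sum, inner_smul_left,
    inner_smul_right, Complex.conj_ofReal, c.hT.herm _ _ _ _ _ hf]

variable {w : I2 → I2 → S2 →L[ℂ] Completion D}

lemma coe_sum' {ι : Type*} (s : Finset ι) (v : ι → D) :
    ((∑ i ∈ s, v i : D) : Completion D) = ∑ i ∈ s, (v i : Completion D) :=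
  map_sum (Completion.toComplL (𝕜 := ℂ) (E := D)) v s

/-- the `T` leg is later -/
lemma facA (hw : TP2 c.Q c.T false w) (h k : V) {g u : V → ℝ} (hg : Tst g) (hu : Tst u)
    (hl : Late (tsupport g) (tsupport u)) (y : D) :
    inner ℂ (wT w h k (PP g u)) (y : Completion D) =
      inner ℂ (c.Tf (hk h k (cx g)) c.Q.vac) (c.Thf (cx u) y) := by
  have e : ∀ m n j, w (m, n) (j, j) (PP g u) =
      ((c.T j j (cx u) (c.T m n (cx g) c.Q.vac) : D) : Completion D) := by
    intro m n j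
    have := hw.fac (m, n) (j, j) (sr g) (sr u) (PP g u) (fun x y => by
      rw [PP_ap hg hu]
      have e1 : sr g x = cx g x := congrFun (ev_sr hg) x
      have e2 : sr u y = cx u y := congrFun (ev_sr hu) y
      rw [e1, e2]; simp [cx]) (by rwa [tsupp_sr hg, tsupp_sr hu])
    simpa [ev_sr hg, ev_sr hu] using this
  simp only [wT_ap, e, sum_inner, inner_smul_left, Complex.conj_ofReal, Completion.inner_coe,
    Tf_hk c h k (test_cx hg), Thf_eq, inner_sum, inner_smul_right,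
    c.hT.herm _ _ _ _ _ (test_cx hu), bar_cx, Finset.mul_sum]
  symm
  rw [Finset.sum_comm]
  refine Finset.sum_congr rfl fun m _ => ?_
  rw [Finset.sum_comm]
  refine Finset.sum_congr rfl fun n _ => Finset.sum_congr rfl fun j _ => ?_
  push_cast
  ring

/-- the `Θ` leg is later -/
lemma facB (hw : TP2 c.Q c.T false w) (h k : V) {g u : V → ℝ} (hg : Tst g) (hu : Tst u)
    (hl : Late (tsupport u) (tsupport g)) (y : D) :
    inner ℂ (wT w h k (PP g u)) (y : Completion D) =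
      inner ℂ (c.Thf (cx u) c.Q.vac) (c.Tf (hk h k (cx g)) y) := by
  have e : ∀ m n j, w (m, n) (j, j) (PP g u) =
      ((c.T m n (cx g) (c.T j j (cx u) c.Q.vac) : D) : Completion D) := by
    intro m n j
    rw [hw.swap (m, n) (j, j) (PP g u) (PP u g) fun x y => by
      rw [PP_ap hg hu, PP_ap hu hg, mul_comm]]
    have := hw.fac (j, j) (m, n) (sr u) (sr g) (PP u g) (fun x y => by
      rw [PP_ap hu hg]
      have e1 : sr g y = cx g y := congrFun (ev_sr hg) y
      have e2 : sr u x = cx u x := congrFun (ev_sr hu) x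
      rw [e1, e2]; simp [cx]) (by rwa [tsupp_sr hg, tsupp_sr hu])
    simpa [ev_sr hg, ev_sr hu] using this
  simp only [wT_ap, e, sum_inner, inner_smul_left, Complex.conj_ofReal, Completion.inner_coe,
    Tf_hk c h k (test_cx hg), Thf_eq, inner_sum, inner_smul_right,
    c.hT.herm _ _ _ _ _ (test_cx hg), bar_cx, Finset.mul_sum]
  refine Finset.sum_congr rfl fun m _ => Finset.sum_congr rfl fun n _ =>
    Finset.sum_congr rfl fun j _ => ?_
  push_cast
  ring

/-- `T(h,k)(g)` commutes with `Θ(f)` -/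
lemma comm (c : Ctx D) (h k : V) {g f : Fn} (hg : IsTest g) (hf : IsTest f) (hs : Sep g f)
    (x : D) : inner ℂ x (c.Tf (hk h k g) (c.Thf f c.Q.vac)) =
      inner ℂ (c.Thf (bar f) x) (c.Tf (hk h k g) c.Q.vac) := by
  have hs' : Sep (bar g) (bar f) := by
    have e : ∀ u : Fn, tsupport (bar u) = tsupport u := fun u => by
      unfold tsupport; congr 1; ext x; simp [bar]
    unfold GF.Sep
    rwa [e, e]
  have e1 : inner ℂ x (c.Tf (hk h k g) (c.Thf f c.Q.vac)) =
      inner ℂ (c.Tf (hk h k (bar g)) x) (c.Thf f c.Q.vac) := by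
    rw [Tf_herm c h k (isTest_bar hg), bar_bar]
  have e2 : inner ℂ (c.Thf (bar f) x) (c.Tf (hk h k g) c.Q.vac) =
      inner ℂ x (c.Thf f (c.Tf (hk h k g) c.Q.vac)) := by
    rw [Thf_herm c (isTest_bar hf), bar_bar]
  rw [e1]
  simp only [Tf_hk c h k hg, Tf_hk c h k (isTest_bar hg), Thf_eq, sum_inner, inner_sum,
    inner_smul_left, inner_smul_right, Complex.conj_ofReal, Finset.mul_sum]
  rw [Finset.sum_comm]
  refine Finset.sum_congr rfl fun m _ => ?_
  rw [Finset.sum_comm]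
  refine Finset.sum_congr rfl fun n _ => Finset.sum_congr rfl fun j _ => ?_
  rw [herm' c j j hf, ← c.Q.loc _ _ _ _ x (c.hT.bose m n) (T_fld c j j) (isTest_bar hg)
    (isTest_bar hf) hs', c.hT.herm m n _ _ _ (isTest_bar hg), bar_bar]
  ring

/-- the pairing is small when `T(h,k)(g) Ω` is small -/
lemma err0 (hw : TP2 c.Q c.T false w) {u : V → ℝ} (hu : Tst u) {f : Fn} (hf : IsTest f) :
    ∃ C : ℝ, 0 ≤ C ∧ ∀ (h k : V) (g : V → ℝ), Tst g → (Late (tsupport g) (tsupport u) ∨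
      (Late (tsupport u) (tsupport g) ∧ Sep (cx g) f)) →
      ‖inner ℂ (wT w h k (PP g u)) (c.Th f)‖ ≤ C * ‖c.Tf (hk h k (cx g)) c.Q.vac‖ := by
  refine ⟨‖c.Thf (cx u) (c.Thf f c.Q.vac)‖ + ‖c.Thf (bar f) (c.Thf (cx u) c.Q.vac)‖,
    by positivity, fun h k g hg hl => ?_⟩
  rcases hl with hl | ⟨hl, hs⟩
  · rw [Ctx.Th, facA hw h k hg hu hl]
    refine (norm_inner_le_norm _ _).trans ?_
    rw [mul_comm]
    gcongr
    exact le_add_of_nonneg_right (norm_nonneg _)
  · rw [Ctx.Th, facB hw h k hg hu hl, comm c h k (test_cx hg) hf hs]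
    refine (norm_inner_le_norm _ _).trans ?_
    gcongr
    exact le_add_of_nonneg_left (norm_nonneg _)

end

end Vale.Agent.P352X.Conm
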