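import Vale.Agent.P352X.R.CONM.B

/-!
# P352X, row CONM, part C: the divergence of the pair test functions (helper90)
-/

set_option linter.all false

open MeasureTheory Filter Topology Set
open scoped SchwartzMap ComplexConjugate ContDiff

namespace Vale.Agent.P352X.Conm

open Vale.Agent.P352 Vale.Agent.P352.GF Vale.Agent.P352.BW Vale.Agent.P352.H246
open Vale.Agent.P352.H496 Vale.Agent.P352.H755 Vale.Agent.P352.H15
open UniformSpace (Completion)
open Complex (I)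

noncomputable section

/-- derivative along `al` -/
def da (g : P3 → ℝ) : P3 → ℝ := fun y => fderiv ℝ g y (1, 0)
/-- transverse derivatives -/
def dj (j : Fin 2) (g : P3 → ℝ) : P3 → ℝ := fun y => fderiv ℝ g y (0, e2 j)

lemma tst_da {g : P3 → ℝ} (h : Tst g) : Tst (da g) := tst_fd h _
lemma tst_dj (j : Fin 2) {g : P3 → ℝ} (h : Tst g) : Tst (dj j g) := tst_fd h _

lemma tst_deriv {φ : ℝ → ℝ} (h : Tst φ) : Tst (deriv φ) := tst_fd h 1

lemma pl_dec (v : V) : pl v = al v • ((1, 0) : P3) + ∑ j, tx v j • ((0, e2 j) : P3) := by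
  refine Prod.ext ?_ ?_
  · simp [Prod.fst_sum]
  · ext i
    fin_cases i <;> simp [Fin.sum_univ_two, e2]

lemma md_bas (h : V) (m : Ix) : mdot h (bas m 1) = eta m * h m := by
  simp [GF.mdot, bas]

lemma line_PP {g : P3 → ℝ} {φ : ℝ → ℝ} {u : V → ℝ} (hg : Tst g) (hφ : Tst φ) (hu : Tst u)
    (v : V) : LineDeriv.lineDerivOp ((v, 0) : V × V) (PP (rp g φ) u) =
      (al v : ℂ) • PP (rp (da g) φ) u + ∑ j, (tx v j : ℂ) • PP (rp (dj j g) φ) u +
        (be v : ℂ) • PP (rp g (deriv φ)) u := by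
  ext z
  have h1 := tst_rp hg hφ
  have e : (PP (rp g φ) u : V × V → ℂ) = fun z => ((g (pl z.1) * φ (be z.1) * u z.2 : ℝ) : ℂ) :=
    funext (PP_ap h1 hu)
  have d1 : HasFDerivAt (fun z : V × V => g (pl z.1))
      ((fderiv ℝ g (pl z.1)).comp (plL.comp (ContinuousLinearMap.fst ℝ V V))) z :=
    (tst_diff hg _).hasFDerivAt.comp z (plL.comp (ContinuousLinearMap.fst ℝ V V)).hasFDerivAt
  have d2 : HasFDerivAt (fun z : V × V => φ (be z.1))
      ((fderiv ℝ φ (be z.1)).comp (beL.comp (ContinuousLinearMap.fst ℝ V V))) z :=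
    (tst_diff hφ _).hasFDerivAt.comp z (beL.comp (ContinuousLinearMap.fst ℝ V V)).hasFDerivAt
  have d3 : HasFDerivAt (fun z : V × V => u z.2)
      ((fderiv ℝ u z.2).comp (ContinuousLinearMap.snd ℝ V V)) z :=
    (tst_diff hu _).hasFDerivAt.comp z (ContinuousLinearMap.snd ℝ V V).hasFDerivAt
  have d4 := Complex.ofRealCLM.hasFDerivAt.comp z ((d1.mul d2).mul d3)
  rw [SchwartzMap.lineDerivOp_apply_eq_fderiv, e]
  erw [d4.fderiv]
  simp only [SchwartzMap.add_apply, SchwartzMap.smul_apply, SchwartzMap.sum_apply,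
    PP_ap (tst_rp (tst_da hg) hφ) hu, PP_ap (tst_rp (tst_dj _ hg) hφ) hu,
    PP_ap (tst_rp hg (tst_deriv hφ)) hu, smul_eq_mul, rp, da, dj]
  simp only [ContinuousLinearMap.comp_apply, ContinuousLinearMap.add_apply,
    ContinuousLinearMap.smul_apply, ContinuousLinearMap.coe_fst', ContinuousLinearMap.coe_snd',
    map_zero, plL_apply, beL_apply, Complex.ofRealCLM_apply, smul_eq_mul, Pi.mul_apply,
    fderiv_eq_smul_deriv]
  rw [pl_dec v]
  simp only [map_add, map_sum, map_smul, smul_eq_mul, Fin.sum_univ_two]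
  push_cast
  ring

variable {D : Type*} [NormedAddCommGroup D] [InnerProductSpace ℂ D] {c : Ctx D}

/-- the divergence as a continuous linear map -/
def dvL (w : I2 → I2 → S2 →L[ℂ] Completion D) (n : Ix) (J : I2) : S2 →L[ℂ] Completion D :=
  ∑ m, (w (m, n) J).comp (LineDeriv.lineDerivOpCLM ℂ S2 ((bas m 1, 0) : V × V))

lemma dvL_ap (w : I2 → I2 → S2 →L[ℂ] Completion D) (n : Ix) (J : I2) (G : S2) :
    dvL w n J G = dv1 w n J G := by
  simp only [dvL, dv1, ContinuousLinearMap.sum_apply, ContinuousLinearMap.comp_apply,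
    LineDeriv.lineDerivOpCLM_apply]

/-- `∂_m w(T^{mn} k_n, Θ)` -/
def dvT (w : I2 → I2 → S2 →L[ℂ] Completion D) (k : V) (G : S2) : Completion D :=
  ∑ n, ∑ j, ((eta n * k n * eta j : ℝ) : ℂ) • dvL w n (j, j) G

lemma wT_alt (w : I2 → I2 → S2 →L[ℂ] Completion D) (h k : V) (F : S2) : wT w h k F =
    ∑ n, ∑ j, ((eta n * k n * eta j : ℝ) : ℂ) •
      ∑ m, (mdot h (bas m 1) : ℂ) • w (m, n) (j, j) F := by
  simp only [wT_ap, Finset.smul_sum, smul_smul, md_bas]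
  rw [Finset.sum_comm]
  refine Finset.sum_congr rfl fun n _ => ?_
  rw [Finset.sum_comm]
  refine Finset.sum_congr rfl fun j _ => Finset.sum_congr rfl fun m _ => ?_
  congr 1
  push_cast
  ring

theorem dvT_PP (w : I2 → I2 → S2 →L[ℂ] Completion D) (k : V) {g : P3 → ℝ} {φ : ℝ → ℝ}
    {u : V → ℝ} (hg : Tst g) (hφ : Tst φ) (hu : Tst u) : dvT w k (PP (rp g φ) u) =
      wT w vb k (PP (rp (da g) φ) u) - ∑ j, wT w (ex j) k (PP (rp (dj j g) φ) u) +
        wT w va k (PP (rp g (deriv φ)) u) := by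
  simp only [dvT, dvL_ap, dv1, line_PP hg hφ hu, wT_alt, md_va, md_vb, md_ex, map_add, map_smul,
    Fin.sum_univ_two (f := fun j => (tx _ j : ℂ) • PP (rp (dj j g) φ) u), Finset.sum_add_distrib,
    smul_add, Fin.sum_univ_two (f := fun j => ∑ n, ∑ l, _ • ∑ m, _ • w _ _ (PP (rp (dj j g) φ) u)),
    Complex.ofReal_neg, neg_smul, Finset.sum_neg_distrib, smul_neg]
  abel

/-! ### scaled cutoffs -/

lemma fd_kL {κ : P3 → ℝ} (h : Tst κ) (L : ℝ) (y v : P3) : fderiv ℝ (kL κ L) y v =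
    fderiv ℝ κ (y.1 / L, (Real.sqrt L)⁻¹ • y.2) (v.1 / L, (Real.sqrt L)⁻¹ • v.2) := by
  let A : P3 →L[ℝ] P3 := (L⁻¹ • ContinuousLinearMap.fst ℝ ℝ R2).prod
    ((Real.sqrt L)⁻¹ • ContinuousLinearMap.snd ℝ ℝ R2)
  have eA : ∀ y : P3, A y = (y.1 / L, (Real.sqrt L)⁻¹ • y.2) := fun y => by
    simp [A, div_eq_inv_mul]
  have e : kL κ L = κ ∘ A := funext fun y => by simp only [kL, Function.comp, eA]
  rw [e, ((tst_diff h _).hasFDerivAt.comp y A.hasFDerivAt).fderiv, ContinuousLinearMap.comp_apply,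
    eA, eA]

/-- multiplication by a transverse coordinate -/
def xm (i : Fin 2) (g : P3 → ℝ) : P3 → ℝ := fun y => y.2 i * g y

lemma tst_xm (i : Fin 2) {g : P3 → ℝ} (h : Tst g) : Tst (xm i g) := tst_mul_l (by fun_prop) h

lemma fd_xm (i : Fin 2) {g : P3 → ℝ} (h : Tst g) (y v : P3) :
    fderiv ℝ (xm i g) y v = v.2 i * g y + y.2 i * fderiv ℝ g y v := by
  have d1 : HasFDerivAt (fun y : P3 => y.2 i)
      ((ContinuousLinearMap.proj (R := ℝ) (φ := fun _ : Fin 2 => ℝ) i).comp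
        (ContinuousLinearMap.snd ℝ ℝ R2)) y :=
    ((ContinuousLinearMap.proj (R := ℝ) (φ := fun _ : Fin 2 => ℝ) i).comp
      (ContinuousLinearMap.snd ℝ ℝ R2)).hasFDerivAt
  have d2 := d1.mul (tst_diff h y).hasFDerivAt
  erw [d2.fderiv]
  simp
  ring

variable {κ : P3 → ℝ} {L : ℝ}

lemma gz_0 : kL κ L = gz 0 κ L := funext fun y => by simp [gz]

lemma gz_xm (hL : 0 < L) (i : Fin 2) (p : ℤ) : xm i (gz p κ L) = gz (p + 1) (xm i κ) L := by
  have hq : 0 < Real.sqrt L := Real.sqrt_pos.2 hL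
  funext y
  simp only [xm, gz, kL, zpow_add₀ hq.ne', zpow_one, Pi.smul_apply, smul_eq_mul]
  field_simp

lemma gz_da (h : Tst κ) (hL : 0 < L) : da (kL κ L) = gz (-2) (da κ) L := by
  funext y
  have e : ((1 / L, (Real.sqrt L)⁻¹ • (0 : R2)) : P3) = L⁻¹ • ((1, 0) : P3) := by simp
  simp only [da, gz, fd_kL h, e, map_smul, smul_eq_mul, kL]
  rw [zpow_neg, zpow_ofNat, Real.sq_sqrt hL.le]

lemma gz_dj (h : Tst κ) (j : Fin 2) : dj j (kL κ L) = gz (-1) (dj j κ) L := by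
  funext y
  have e : ((0 / L, (Real.sqrt L)⁻¹ • e2 j) : P3) = (Real.sqrt L)⁻¹ • ((0, e2 j) : P3) := by simp
  simp only [dj, gz, fd_kL h, e, map_smul, smul_eq_mul, kL, zpow_neg, zpow_one]

lemma da_xm {g : P3 → ℝ} (h : Tst g) (i : Fin 2) : da (xm i g) = xm i (da g) := by
  funext y
  simp [da, fd_xm i h, xm]

lemma dj_xm {g : P3 → ℝ} (h : Tst g) (i j : Fin 2) :
    dj j (xm i g) = fun y => e2 j i * g y + xm i (dj j g) y := by
  funext y
  simp [dj, fd_xm i h, xm]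

lemma cut_fd (h : Cut κ) (v : P3) : (0 : P3) ∉ tsupport fun y => fderiv ℝ κ y v := by
  rw [notMem_tsupport_iff_eventuallyEq]
  filter_upwards [h.2.eventually_nhds] with y hy
  have : κ =ᶠ[𝓝 y] fun _ => 1 := hy
  rw [this.fderiv_eq]
  simp

lemma cut_xm {g : P3 → ℝ} (i : Fin 2) (h : (0 : P3) ∉ tsupport g) : (0 : P3) ∉ tsupport (xm i g) :=
  fun h' => h (tsupport_mul_subset_right h')

lemma PP_rp_add {g g' : P3 → ℝ} {φ : ℝ → ℝ} {u : V → ℝ} (hg : Tst g) (hg' : Tst g') (hφ : Tst φ)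
    (hu : Tst u) (a : ℝ) : PP (rp (fun y => a * g y + g' y) φ) u =
      (a : ℂ) • PP (rp g φ) u + PP (rp g' φ) u := by
  ext z
  rw [SchwartzMap.add_apply, SchwartzMap.smul_apply, PP_ap (tst_rp hg hφ) hu,
    PP_ap (tst_rp hg' hφ) hu, PP_ap (tst_rp (tst_add (tst_mul_l contDiff_const hg) hg') hφ) hu]
  simp only [rp, smul_eq_mul]
  push_cast
  ring

lemma PP_rp_add' {g : P3 → ℝ} {φ φ' ψ : ℝ → ℝ} {u : V → ℝ} (hg : Tst g) (hφ : Tst φ)
    (hφ' : Tst φ') (hu : Tst u) (e : ψ = fun t => φ t + φ' t) :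
    PP (rp g ψ) u = PP (rp g φ) u + PP (rp g φ') u := by
  rw [← PP_add (tst_rp hg hφ) (tst_rp hg hφ') hu, e]
  congr 1
  funext z
  simp only [rp, mul_add]

/-- multiplication by a transverse coordinate -/
def xv (i : Fin 2) (u : V → ℝ) : V → ℝ := fun z => tx z i * u z

lemma tst_xv (i : Fin 2) {u : V → ℝ} (h : Tst u) : Tst (xv i u) := tst_mul_l (by fun_prop) h

variable {w : I2 → I2 → S2 →L[ℂ] Completion D}

/-- **The thin part is a divergence up to fluxes.** -/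
theorem thin_lim (hg : GRP c) (hw : TP2 c.Q c.T false w) (hκ : Cut κ) (i : Fin 2)
    {ρ A A1 B B1 : ℝ → ℝ} {u : V → ℝ} {f : Fn} {b b0 : ℝ} (hρ : Tst ρ) (hA : Tst A) (hA1 : Tst A1)
    (hB : Tst B) (hB1 : Tst B1) (hu : Tst u) (hf : In {z | be z < b} f)
    (eA : deriv A = fun t => ρ t + A1 t) (eB : deriv B = fun t => A t + B1 t)
    (sA : tsupport A ⊆ Ici b) (sB : tsupport B ⊆ Ici b) (sA1 : tsupport A1 ⊆ Ioi b0)
    (sB1 : tsupport B1 ⊆ Ioi b0) (su : tsupport u ⊆ {z | be z ≤ b0}) :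
    Tendsto (fun L => inner ℂ (dvT w va (PP (rp (xm i (kL κ L)) A) u) -
      dvT w va (PP (rp (kL κ L) A) (xv i u)) + dvT w (ex i) (PP (rp (kL κ L) B) u)) (c.Th f) -
      inner ℂ (wT w va va (PP (rp (xm i (kL κ L)) ρ) u) -
        wT w va va (PP (rp (kL κ L) ρ) (xv i u))) (c.Th f)) atTop (𝓝 0) := by
  have hu' := tst_xv i hu
  have su' : tsupport (xv i u) ⊆ {z | be z ≤ b0} := tsupport_mul_subset_right.trans su
  have k1 := hκ.1
  have t1 := errU hg hw wt_a wt_a (p := 0 + 1) (by norm_num) (tst_xm i k1) hA1 hu hf.1 sA1 su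
  have t2 := errU hg hw wt_a wt_a (p := 0) (by norm_num) k1 hA1 hu' hf.1 sA1 su'
  have t3 := errU hg hw wt_a (wt_e i) (p := 0) (by norm_num) k1 hB1 hu hf.1 sB1 su
  have t4 := errF hg hw wt_b wt_a (p := -2 + 1) (by norm_num) (tst_xm i (tst_da k1)) hA hu hf
    (cut_xm i (cut_fd hκ _)) sA
  have t5 := errF hg hw wt_b wt_a (p := -2) (by norm_num) (tst_da k1) hA hu' hf (cut_fd hκ _) sA
  have t6 := errF hg hw wt_b (wt_e i) (p := -2) (by norm_num) (tst_da k1) hB hu hf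
    (cut_fd hκ _) sB
  have t7 := fun j => errF hg hw (wt_e j) wt_a (p := -1 + 1) (by norm_num)
    (tst_xm i (tst_dj j k1)) hA hu hf (cut_xm i (cut_fd hκ _)) sA
  have t8 := fun j => errF hg hw (wt_e j) wt_a (p := -1) (by norm_num) (tst_dj j k1) hA hu' hf
    (cut_fd hκ _) sA
  have t9 := fun j => errF hg hw (wt_e j) (wt_e i) (p := -1) (by norm_num) (tst_dj j k1) hB hu hf
    (cut_fd hκ _) sB
  have t := (((((((((((t1.sub t2).add t3).add t4).sub t5).add t6).sub (t7 0)).sub (t7 1)).add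
    (t8 0)).add (t8 1)).sub (t9 0)).sub (t9 1))
  simp only [sub_zero, add_zero] at t
  refine t.congr' ?_
  filter_upwards [eventually_gt_atTop 0] with L hL
  have k2 := Far.tst_kL k1 hL
  rw [dvT_PP w va (tst_xm i k2) hA hu, dvT_PP w va k2 hA hu', dvT_PP w (ex i) k2 hB hu,
    PP_rp_add' (tst_xm i k2) hρ hA1 hu eA, PP_rp_add' k2 hρ hA1 hu' eA,
    PP_rp_add' k2 hA hB1 hu eB, da_xm k2]
  simp only [dj_xm k2, PP_rp_add k2 (tst_xm i (tst_dj _ k2)) hA hu, ← gz_xm hL, ← gz_0,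
    ← gz_da k1 hL, ← gz_dj k1, map_add, map_smul, Fin.sum_univ_two, inner_add_left, inner_sub_left,
    inner_smul_left, Complex.conj_ofReal, wT_symm hw va (ex i)]
  fin_cases i <;> simp [e2] <;> ring

end

end Vale.Agent.P352X.Conm
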