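import Vale.Agent.P352X.R.CONM.C
import Vale.Agent.P352X.R.NULL
import Vale.Agent.P352X.Api3d
import Vale.Agent.P352X.Api4

/-!
# P352X, row CONM, part D: overlaps of the trace with covariant multiplets (helper90)
-/

set_option linter.all false

open MeasureTheory Filter Topology Set
open scoped SchwartzMap ComplexConjugate ContDiff

namespace Vale.Agent.P352X.Conm

open Vale.Agent.P352 Vale.Agent.P352.GF Vale.Agent.P352.BW Vale.Agent.P352.H246
open Vale.Agent.P352.H496 Vale.Agent.P352.H755 Vale.Agent.P352.H15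
open UniformSpace (Completion)
open Complex (I)

noncomputable section

lemma ft_sch (f : Sch) : ∃ g : Sch, ∀ p, g p = ft (ev f) p := ⟨ftS f, congrFun (ev_ftS f)⟩

lemma ft_gft (f : Fn) : ft f = FT.gft mdL f := rfl

lemma evp_cont (q : MvPolynomial Ix ℂ) : Continuous (evp q) :=
  (MvPolynomial.continuous_eval q).comp (by fun_prop)

lemma evp_hom {q : MvPolynomial Ix ℂ} {n : ℕ} (h : q.IsHomogeneous n) (t : ℝ) (p : V) :
    evp q (t • p) = (t : ℂ) ^ n * evp q p := by
  simp only [evp, MvPolynomial.eval_eq', Finset.mul_sum]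
  refine Finset.sum_congr rfl fun d hd => ?_
  have e : ∑ i, d i = n := by
    have := h (MvPolynomial.mem_support_iff.1 hd)
    rw [← Finsupp.degree_eq_sum, Finsupp.degree_eq_weight_one]
    exact this
  simp only [Pi.smul_apply, smul_eq_mul, Complex.ofReal_mul, mul_pow, Finset.prod_mul_distrib,
    Finset.prod_pow_eq_pow_sum, e]
  ring

lemma evp_mup (p : V) : evp mup p = mu p := by
  simp only [evp, mup, map_sum, map_mul, MvPolynomial.eval_C, map_pow, MvPolynomial.eval_X, mu,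
    GF.mdot]
  push_cast
  exact Finset.sum_congr rfl fun m _ => by ring

lemma int_evp (q : MvPolynomial Ix ℂ) (f : Sch) :
    Integrable (fun p => evp q p * conj (ft (ev f) p)) (volume.restrict Fc) := by
  obtain ⟨g, hg⟩ := ft_sch f
  have h1 : (evp q).HasTemperateGrowth := Api4.temperate_evp q (ContinuousLinearMap.id ℝ V)
  have h2 := (SchwartzMap.smulLeftCLM ℂ (evp q) g).integrable (μ := volume)
  refine (Integrable.mono' h2.norm ?_ (ae_of_all _ fun p => ?_)).restrict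
  · have : Continuous fun p => conj (ft (ev f) p) := by
      have e : ft (ev f) = g := funext fun p => (hg p).symm
      rw [e]
      exact Complex.continuous_conj.comp g.continuous
    exact ((evp_cont q).mul this).aestronglyMeasurable
  · rw [SchwartzMap.smulLeftCLM_apply_apply h1, hg, smul_eq_mul, norm_mul, norm_mul,
      Complex.norm_conj]

lemma tr_inv {L : Ix → V} (hL : IsLor L) (F : Ix → Ix → ℂ) :
    ∑ r, (eta r : ℂ) * ∑ a, ∑ b, (L a r * L b r : ℂ) * F a b = ∑ a, (eta a : ℂ) * F a a := by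
  simp only [Finset.mul_sum]
  rw [Finset.sum_comm]
  refine Finset.sum_congr rfl fun a _ => ?_
  rw [Finset.sum_comm]
  have e : ∀ b, ∑ r, (eta r : ℂ) * ((L a r * L b r : ℂ) * F a b) =
      ((bas a (eta a) b : ℝ) : ℂ) * F a b := fun b => by
    rw [← hL.1 a b, GF.mdot]
    push_cast
    rw [Finset.sum_mul]
    exact Finset.sum_congr rfl fun r _ => by ring
  simp only [e, bas]
  rw [Finset.sum_eq_single a (fun b _ hb => by simp [hb]) (by simp)]
  simp

variable {D : Type*} [NormedAddCommGroup D] [InnerProductSpace ℂ D] {c : Ctx D}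

/-- the overlap of the trace with a covariant multiplet -/
structure Ov (c : Ctx D) {N : ℕ} (d : ℤ) (O : (Fin N → Ix) → Sch →L[ℂ] Completion D)
    (q : (Fin N → Ix) → V → ℂ) : Prop where
  rep : ∀ μ (f' f : Sch), inner ℂ (c.Th (ev f')) (O μ f) =
    ∫ p in Fc, q μ p * conj (ft (ev f') p) * ft (ev f) p
  int : ∀ μ (f' : Sch), Integrable (fun p => q μ p * conj (ft (ev f') p)) (volume.restrict Fc)
  dvd : ∀ μ, ∃ s : V → ℂ, Continuous s ∧ ∀ p, q μ p = mu p * s p
  hom : ∀ μ (t : ℝ) p, q μ (t • p) = (t : ℂ) ^ d.toNat * q μ p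
  neg : d < 0 → ∀ μ p, q μ p = 0
  cov : ∀ μ L p, IsLor L → q μ (sim 1 L 0 p) =
    ∑ ν : Fin N → Ix, ((∏ i, L (ν i) (μ i) : ℝ) : ℂ) * q ν p

lemma int_ft' {q : V → ℂ} (h : Integrable q (volume.restrict Fc)) (f : Sch) :
    Integrable (fun p => q p * ft (ev f) p) (volume.restrict Fc) :=
  h.mul_bdd (c := ∫ z, ‖ev f z‖) (FT.continuous_gft (B := mdL) f.integrable).aestronglyMeasurable
    (ae_of_all _ fun p => FT.norm_gft_le (B := mdL) _ p)

theorem ex_ov (hp : POLY c) {N : ℕ} {d : ℤ} {O : (Fin N → Ix) → Sch →L[ℂ] Completion D}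
    (hO : CovM c.Q N d O) (he : Even (d - N)) : ∃ q, Ov c d O q := by
  obtain ⟨π, h1, h2, h3, h4, h5, h6⟩ := hp N d O hO he
  refine ⟨fun μ p => ∑ r, (eta r : ℂ) * evp (π r r μ) p, fun μ f' f => ?_, fun μ f' => ?_,
    fun μ => ?_, fun μ t p => ?_, fun hd μ p => ?_, fun μ L p hL => ?_⟩
  · have e : c.Th (ev f') = ∑ r, (eta r : ℂ) •
        ((c.T r r (ev f') c.Q.vac : D) : Completion D) := by
      simp only [Ctx.Th, Thf_eq, coe_sum', Completion.coe_smul]
    simp only [e, sum_inner, inner_smul_left, Complex.conj_ofReal, h1, Finset.sum_mul]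
    rw [integral_finset_sum _ fun r _ => by
      simpa only [mul_assoc] using (int_ft' (int_evp (π r r μ) f') f).const_mul (eta r : ℂ)]
    refine Finset.sum_congr rfl fun r _ => ?_
    rw [← integral_const_mul]
    simp only [mul_assoc]
  · simp only [Finset.sum_mul, mul_assoc]
    exact integrable_finset_sum _ fun r _ => (int_evp _ f').const_mul _
  · have hd : mup ∣ ∑ r, MvPolynomial.C (eta r : ℂ) * π r r μ := by
      refine Nul.dvd_of _ ?_
      have e : (∑ r, MvPolynomial.C (eta r : ℂ) * π r r μ) * MvPolynomial.X 0 =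
          ∑ r, MvPolynomial.C (eta r : ℂ) *
            (π r r μ * MvPolynomial.X 0 - π 0 r μ * MvPolynomial.X r) := by
        have := h4 0 μ
        simp only [mul_sub, Finset.sum_sub_distrib, Finset.sum_mul, mul_assoc]
        rw [eq_comm, sub_eq_self, ← this]
        exact Finset.sum_congr rfl fun r _ => by rw [h3 0 r]; ring
      rw [e]
      exact Finset.dvd_sum fun r _ => (h5 r r 0 μ).mul_left _
    obtain ⟨σ, hσ⟩ := hd
    refine ⟨evp σ, evp_cont σ, fun p => ?_⟩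
    have := congrArg (fun q => evp q p) hσ
    simp only [← evp_mup]
    simpa only [evp, map_sum, map_mul, MvPolynomial.eval_C] using this
  · simp only [evp_hom (h2 _ _ _).1, Finset.mul_sum]
    exact Finset.sum_congr rfl fun r _ => by ring
  · simp [(h2 _ _ _).2 hd, evp]
  · simp only [h6 _ _ _ L p hL]
    have := tr_inv hL fun a b => ∑ ν : Fin N → Ix, ((∏ i, L (ν i) (μ i) : ℝ) : ℂ) * evp (π a b ν) p
    simp only [Finset.mul_sum] at this ⊢
    rw [Finset.sum_comm (f := fun ν r => _ * (_ * evp (π r r ν) p))]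
    convert this using 2 with r
    · refine Finset.sum_congr rfl fun a _ => Finset.sum_congr rfl fun b _ =>
        Finset.sum_congr rfl fun ν _ => ?_
      push_cast
      ring
    · exact Finset.sum_congr rfl fun ν _ => by ring

variable {N : ℕ} {d : ℤ} {O : (Fin N → Ix) → Sch →L[ℂ] Completion D} {q : (Fin N → Ix) → V → ℂ}

/-- the overlap is bounded by the `L¹` norm -/
lemma Ov.bd (h : Ov c d O q) (f' : Sch) : ∃ C : ℝ, 0 ≤ C ∧ ∀ μ (f : Sch),
    ‖inner ℂ (c.Th (ev f')) (O μ f)‖ ≤ C * ∫ z, ‖f z‖ := by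
  refine ⟨∑ μ, ∫ p in Fc, ‖q μ p * conj (ft (ev f') p)‖,
    Finset.sum_nonneg fun μ _ => integral_nonneg fun _ => norm_nonneg _, fun μ f => ?_⟩
  rw [h.rep]
  have h0 : 0 ≤ ∫ z, ‖f z‖ := integral_nonneg fun _ => norm_nonneg _
  refine (norm_integral_le_of_norm_le ((h.int μ f').norm.mul_const (∫ z, ‖f z‖))
    (ae_of_all _ fun p => ?_)).trans ?_
  · rw [norm_mul]
    gcongr
    exact FT.norm_gft_le (B := mdL) _ p
  · rw [integral_mul_const]
    gcongr
    exact Finset.single_le_sum (f := fun μ => ∫ p in Fc, ‖q μ p * conj (ft (ev f') p)‖)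
      (fun μ _ => integral_nonneg fun _ => norm_nonneg _) (Finset.mem_univ μ)

lemma sum_cons {M : Type*} [AddCommMonoid M] {k : ℕ} (F : (Fin (k + 1) → Ix) → M) :
    ∑ ν, F ν = ∑ n, ∑ γ : Fin k → Ix, F (Matrix.vecCons n γ) := by
  rw [← Fintype.sum_prod_type']
  exact (Fintype.sum_equiv (Fin.consEquiv fun _ => Ix) _ _ fun _ => rfl).symm

lemma sum_ix3 {M : Type*} [AddCommMonoid M] {k : ℕ} (F : (Fin (k + 3) → Ix) → M) :
    ∑ ν, F ν = ∑ a, ∑ b, ∑ x : Ix × (Fin k → Ix), F (ix3 x.1 (a, b) x.2) := by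
  simp only [sum_cons (k := k + 2), sum_cons (k := k + 1), sum_cons (k := k),
    Fintype.sum_prod_type]
  rw [Finset.sum_comm]
  refine Finset.sum_congr rfl fun a _ => ?_
  rw [Finset.sum_comm]
  rfl

lemma prod_ix3 {k : ℕ} (L : Ix → V) (n n' a a' b b' : Ix) (γ γ' : Fin k → Ix) :
    ∏ i, L (ix3 n' (a', b') γ' i) (ix3 n (a, b) γ i) =
      L a' a * L b' b * (L n' n * ∏ i, L (γ' i) (γ i)) := by
  simp only [ix3, Fin.prod_univ_succ, Matrix.cons_val_zero, Matrix.cons_val_succ]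
  ring

lemma pow_aux {r X m Y : ℂ} (hr : r ≠ 0) {k : ℕ} (h2 : 2 ≤ k) (h5 : k ≤ 5)
    (h : r ^ (5 - k) * (r⁻¹ ^ k * X) = r ^ 2 * m * Y) : X = r ^ (2 * k - 3) * (m * Y) := by
  interval_cases k <;> norm_num at h ⊢ <;> field_simp at h <;>
    first | linear_combination h | exact h

/-- **Boost weights.** -/
theorem weight (hg : GRP c) {k : ℕ} (hk : 2 ≤ k)
    {O : (Fin (k + 3) → Ix) → Sch →L[ℂ] Completion D} {q : (Fin (k + 3) → Ix) → V → ℂ}
    (h : Ov c (5 - k) O q) (t : Ix × (Fin k → Ix) → ℂ)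
    (ht : ∀ L : ℝ, 0 < L → ∀ x' : Ix × (Fin k → Ix), ∑ x : Ix × (Fin k → Ix),
      ((Bs L x'.1 x.1 * ∏ i, Bs L (x'.2 i) (x.2 i) : ℝ) : ℂ) * t x =
        (((Real.sqrt L)⁻¹ : ℝ) : ℂ) ^ k * t x') (p : V) :
    ∑ x : Ix × (Fin k → Ix), t x * ∑ j, (eta j : ℂ) * q (ix3 x.1 (j, j) x.2) p = 0 := by
  by_cases h5 : 5 < k
  · simp [h.neg (by omega)]
  set P : V → ℂ := fun p =>
    ∑ x : Ix × (Fin k → Ix), t x * ∑ j, (eta j : ℂ) * q (ix3 x.1 (j, j) x.2) p with hP
  choose s hs1 hs2 using h.dvd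
  set S : V → ℂ := fun p =>
    ∑ x : Ix × (Fin k → Ix), t x * ∑ j, (eta j : ℂ) * s (ix3 x.1 (j, j) x.2) p with hS
  have cS : Continuous S := by fun_prop
  have e1 : ∀ p, P p = mu p * S p := fun p => by
    simp only [hP, hS, hs2, Finset.mul_sum]
    exact Finset.sum_congr rfl fun x _ => Finset.sum_congr rfl fun j _ => by ring
  have e2 : ∀ (r : ℝ) p, P (r • p) = (r : ℂ) ^ (5 - k) * P p := fun r p => by
    have : ((5 : ℤ) - k).toNat = 5 - k := by omega
    simp only [hP, h.hom, this, Finset.mul_sum]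
    exact Finset.sum_congr rfl fun x _ => Finset.sum_congr rfl fun j _ => by ring
  have e3 : ∀ L : ℝ, 0 < L → P (sim 1 (Bs L) 0 p) = (((Real.sqrt L)⁻¹ : ℝ) : ℂ) ^ k * P p := by
    intro L hL
    have hB := Bs_lor hg hL
    have a1 : ∀ x : Ix × (Fin k → Ix), ∑ j, (eta j : ℂ) * q (ix3 x.1 (j, j) x.2)
        (sim 1 (Bs L) 0 p) = ∑ x' : Ix × (Fin k → Ix),
          ((Bs L x'.1 x.1 * ∏ i, Bs L (x'.2 i) (x.2 i) : ℝ) : ℂ) *
            ∑ j, (eta j : ℂ) * q (ix3 x'.1 (j, j) x'.2) p := by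
      intro x
      have := tr_inv hB fun a b => ∑ x' : Ix × (Fin k → Ix),
        ((Bs L x'.1 x.1 * ∏ i, Bs L (x'.2 i) (x.2 i) : ℝ) : ℂ) * q (ix3 x'.1 (a, b) x'.2) p
      simp only [h.cov _ _ p hB, sum_ix3, prod_ix3]
      simp only [Finset.mul_sum] at this ⊢
      rw [Finset.sum_comm (f := fun x' j => _ * (_ * q (ix3 (Prod.fst x') (j, j) (Prod.snd x')) p))]
      convert this using 2 with r
      · refine Finset.sum_congr rfl fun a _ => Finset.sum_congr rfl fun b _ =>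
          Finset.sum_congr rfl fun ν _ => ?_
        push_cast
        ring
      · exact Finset.sum_congr rfl fun ν _ => by ring
    have a2 : ∀ R : Ix × (Fin k → Ix) → ℂ, ∑ x : Ix × (Fin k → Ix), t x * ∑ x' : Ix × (Fin k → Ix),
        ((Bs L x'.1 x.1 * ∏ i, Bs L (x'.2 i) (x.2 i) : ℝ) : ℂ) * R x' =
        (((Real.sqrt L)⁻¹ : ℝ) : ℂ) ^ k * ∑ x, t x * R x := by
      intro R
      simp only [Finset.mul_sum]
      rw [Finset.sum_comm]
      refine Finset.sum_congr rfl fun x' _ => ?_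
      rw [← mul_assoc, ← ht L hL x', Finset.sum_mul]
      exact Finset.sum_congr rfl fun x _ => by ring
    simp only [hP, a1]
    exact a2 _
  have e4 : ∀ r : ℝ, 0 < r → P p = (r : ℂ) ^ (2 * k - 3) * (mu p * S (scp (r ^ 2) 1 p)) := by
    intro r hr
    have hL : 0 < r ^ 2 := by positivity
    have b1 : scp (r ^ 2) 1 p = r • sim 1 (Bs (r ^ 2)) 0 p := by
      rw [Bs_sim hg hL, Real.sqrt_sq hr.le, smul_smul, mul_inv_cancel₀ hr.ne', one_smul]
    have b2 := e1 (scp (r ^ 2) 1 p)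
    rw [b1, e2, e3 _ hL, mu_smul, mu_lor _ (Bs_lor hg hL), Real.sqrt_sq hr.le, ← b1] at b2
    have hr' : (r : ℂ) ≠ 0 := Complex.ofReal_ne_zero.2 hr.ne'
    push_cast at b2
    exact pow_aux hr' hk (not_lt.1 h5) b2
  have t1 : Tendsto (fun r : ℝ => (r : ℂ) ^ (2 * k - 3) * (mu p * S (scp (r ^ 2) 1 p)))
      (𝓝[>] 0) (𝓝 0) := by
    have c1 : Continuous fun r : ℝ => (r : ℂ) ^ (2 * k - 3) * (mu p * S (scp (r ^ 2) 1 p)) := by
      have : Continuous fun r : ℝ => scp (r ^ 2) 1 p := by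
        unfold scp
        fun_prop
      fun_prop
    have := (c1.tendsto 0).mono_left (nhdsWithin_le_nhds (s := Ioi 0))
    rwa [Complex.ofReal_zero, zero_pow (by omega), zero_mul] at this
  exact tendsto_nhds_unique (l := 𝓝[>] (0 : ℝ))
    (tendsto_const_nhds.congr' (eventually_nhdsWithin_of_forall e4)) t1

end

end Vale.Agent.P352X.Conm
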