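import Vale.Agent.P352X.R.CONM.D

/-!
# P352X, row CONM, part E: the contact terms (helper90)
-/

set_option linter.all false

open MeasureTheory Filter Topology Set
open scoped SchwartzMap ComplexConjugate ContDiff

namespace Vale.Agent.P352X.Conm

open Vale.Agent.P352 Vale.Agent.P352.GF Vale.Agent.P352.BW Vale.Agent.P352.H246
open Vale.Agent.P352.H496 Vale.Agent.P352.H755 Vale.Agent.P352.H15
open UniformSpace (Completion)
open Complex (I)

noncomputable section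

lemma dg_ap {k : ℕ} (γ : Fin k → Ix) (G : S2) (z : V) :
    dg γ G z = iteratedFDeriv ℝ k (fun u : V => G (z + u, z)) 0 fun i => bas (γ i) 1 := by
  let Δ : V →L[ℝ] V × V := (ContinuousLinearMap.id ℝ V).prod (ContinuousLinearMap.id ℝ V)
  have hΔ : AntilipschitzWith 1 Δ := AntilipschitzWith.of_le_mul_dist fun x y => by
    simp [Δ, Prod.dist_eq]
  refine Api4.sch_apply' ⟨SchwartzMap.compCLMOfAntilipschitz ℂ Δ.hasTemperateGrowth hΔ
    (LineDeriv.iteratedLineDerivOp (fun i => ((bas (γ i) 1, 0) : V × V)) G), fun x => ?_⟩ z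
  have e : (fun u : V => G (x + u, x)) =
      (fun y => G ((x, x) + y)) ∘ ContinuousLinearMap.inl ℝ V V := by
    funext u
    simp
  have s : ContDiff ℝ ∞ fun y => G ((x, x) + y) :=
    (G.smooth ⊤).comp (contDiff_const.add contDiff_id)
  rw [e, ContinuousLinearMap.iteratedFDeriv_comp_right _ s _ (by exact_mod_cast le_top),
    iteratedFDeriv_comp_add_left, SchwartzMap.compCLMOfAntilipschitz_apply, Function.comp_apply,
    SchwartzMap.iteratedLineDerivOp_eq_iteratedFDeriv]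
  simp [Δ]

lemma sim_bas (L : Ix → V) (m : Ix) : sim 1 L 0 (bas m 1) = L m := by
  funext n
  simp [sim, bas]

lemma bas_dec (v : V) : v = ∑ m, v m • bas m 1 := by
  funext n
  simp [bas, Finset.sum_apply]

variable {D : Type*} [NormedAddCommGroup D] [InnerProductSpace ℂ D] {c : Ctx D}

lemma Bs_row (hg : GRP c) {L : ℝ} (hL : 0 < L) (m : Ix) :
    Bs L m = (Real.sqrt L)⁻¹ • scp L 1 (bas m 1) := by
  rw [← Bs_sim hg hL, sim_bas]

lemma eig (hg : GRP c) {L : ℝ} (hL : 0 < L) {ψ : V → ℂ} (hψ : ContDiff ℝ ∞ ψ) {a : ℂ}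
    (h : ∀ v, ψ (scp L 1 v) = a * ψ v) {k : ℕ} (γ' : Fin k → Ix) :
    ∑ γ : Fin k → Ix, ((∏ i, Bs L (γ' i) (γ i) : ℝ) : ℂ) *
      iteratedFDeriv ℝ k ψ 0 (fun i => bas (γ i) 1) =
      (((Real.sqrt L)⁻¹ : ℝ) : ℂ) ^ k * (a * iteratedFDeriv ℝ k ψ 0 fun i => bas (γ' i) 1) := by
  have e1 : iteratedFDeriv ℝ k ψ 0 (fun i => Bs L (γ' i)) = ∑ γ : Fin k → Ix,
      ((∏ i, Bs L (γ' i) (γ i) : ℝ) : ℂ) * iteratedFDeriv ℝ k ψ 0 (fun i => bas (γ i) 1) := by
    conv_lhs => rw [funext fun i => bas_dec (Bs L (γ' i))]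
    rw [ContinuousMultilinearMap.map_sum]
    refine Finset.sum_congr rfl fun γ _ => ?_
    rw [ContinuousMultilinearMap.map_smul_univ, Complex.real_smul]
  have e2 : ψ ∘ scpL L 1 = a • ψ := funext fun v => h v
  have e3 := ContinuousLinearMap.iteratedFDeriv_comp_right (scpL L 1) hψ 0 (i := k)
    (by exact_mod_cast le_top)
  rw [e2, iteratedFDeriv_const_smul_apply (hψ.of_le (by exact_mod_cast le_top)).contDiffAt,
    map_zero] at e3
  have e4 := congrArg (fun M => M fun i => bas (γ' i) 1) e3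
  simp only [ContinuousMultilinearMap.smul_apply,
    ContinuousMultilinearMap.compContinuousLinearMap_apply, scpL_apply, smul_eq_mul] at e4
  rw [← e1, e4]
  simp only [Bs_row hg hL]
  rw [ContinuousMultilinearMap.map_smul_univ, Complex.real_smul]
  simp

/-- the local form of the test function near the diagonal, first term -/
def p1 (i : Fin 2) (A : ℝ → ℝ) (z : V) : V → ℂ := fun v => ((tx v i * A (be z + be v) : ℝ) : ℂ)
/-- second term -/
def p2 (B : ℝ → ℝ) (z : V) : V → ℂ := fun v => ((B (be z + be v) : ℝ) : ℂ)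

lemma sm_p1 (i : Fin 2) {A : ℝ → ℝ} (h : Tst A) (z : V) : ContDiff ℝ ∞ (p1 i A z) :=
  Complex.ofRealCLM.contDiff.comp ((by fun_prop : ContDiff ℝ ∞ fun v : V => tx v i).mul
    (h.1.comp (by fun_prop)))

lemma sm_p2 {B : ℝ → ℝ} (h : Tst B) (z : V) : ContDiff ℝ ∞ (p2 B z) :=
  Complex.ofRealCLM.contDiff.comp (h.1.comp (by fun_prop))

/-- the components of the test vector field -/
def Gc (i : Fin 2) (g : P3 → ℝ) (A B : ℝ → ℝ) (u : V → ℝ) (n : Ix) : S2 :=
  ((eta n * va n : ℝ) : ℂ) • (PP (rp (xm i g) A) u - PP (rp g A) (xv i u)) +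
    ((eta n * ex i n : ℝ) : ℂ) • PP (rp g B) u

section

variable {i : Fin 2} {g : P3 → ℝ} {A B : ℝ → ℝ} {u : V → ℝ} (hg' : Tst g) (hA : Tst A)
  (hB : Tst B) (hu : Tst u)
include hg' hA hB hu

lemma Gc_ap (n : Ix) (z : V × V) : Gc i g A B u n z =
    ((eta n * va n * (tx z.1 i - tx z.2 i) * (rp g A z.1 * u z.2) +
      eta n * ex i n * (rp g B z.1 * u z.2) : ℝ) : ℂ) := by
  simp only [Gc, SchwartzMap.add_apply, SchwartzMap.smul_apply, SchwartzMap.sub_apply,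
    PP_ap (tst_rp (tst_xm i hg') hA) hu, PP_ap (tst_rp hg' hA) (tst_xv i hu),
    PP_ap (tst_rp hg' hB) hu, smul_eq_mul, rp, xm, xv, pl_2]
  push_cast
  ring

lemma Gc_cs (n : Ix) : HasCompactSupport (Gc i g A B u n) := by
  have : (Gc i g A B u n : V × V → ℂ) = cx fun z : V × V =>
      eta n * va n * (tx z.1 i - tx z.2 i) * (rp g A z.1 * u z.2) +
        eta n * ex i n * (rp g B z.1 * u z.2) := funext (Gc_ap hg' hA hB hu n)
  rw [this]
  exact (dc_cx (tst_add (tst_mul_l (by fun_prop) (tst_prod (tst_rp hg' hA) hu))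
    (tst_mul_l contDiff_const (tst_prod (tst_rp hg' hB) hu)))).2

lemma dg_Gc (h1 : ∀ z ∈ tsupport u, ∀ᶠ y in 𝓝 (pl z), g y = 1) {k : ℕ} (x : Ix × (Fin k → Ix))
    (z : V) : dg x.2 (Gc i g A B u x.1) z = u z *
      ((eta x.1 * va x.1 : ℝ) * iteratedFDeriv ℝ k (p1 i A z) 0 (fun j => bas (x.2 j) 1) +
        (eta x.1 * ex i x.1 : ℝ) * iteratedFDeriv ℝ k (p2 B z) 0 fun j => bas (x.2 j) 1) := by
  have e : (fun v : V => Gc i g A B u x.1 (z + v, z)) =ᶠ[𝓝 0]
      ((u z * (eta x.1 * va x.1 : ℝ) : ℂ) • p1 i A z +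
        (u z * (eta x.1 * ex i x.1 : ℝ) : ℂ) • p2 B z) := by
    by_cases hz : z ∈ tsupport u
    · have t : Tendsto (fun v : V => pl (z + v)) (𝓝 0) (𝓝 (pl z)) :=
        Continuous.tendsto' (by fun_prop) _ _ (by simp)
      filter_upwards [t.eventually (h1 z hz)] with v hv
      simp only [Gc_ap hg' hA hB hu, rp, hv, p1, p2, Pi.add_apply, Pi.smul_apply, smul_eq_mul,
        tx_add, be_add]
      push_cast
      ring
    · refine Eventually.of_forall fun v => ?_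
      simp [Gc_ap hg' hA hB hu, image_eq_zero_of_notMem_tsupport hz]
  have s1 : ContDiffAt ℝ k (p1 i A z) 0 :=
    ((sm_p1 i hA z).of_le (by exact_mod_cast le_top)).contDiffAt
  have s2 : ContDiffAt ℝ k (p2 B z) 0 := ((sm_p2 hB z).of_le (by exact_mod_cast le_top)).contDiffAt
  have s3 : ∀ a : ℂ, ContDiffAt ℝ k (a • p1 i A z) 0 := fun a => s1.const_smul a
  have s4 : ∀ a : ℂ, ContDiffAt ℝ k (a • p2 B z) 0 := fun a => s2.const_smul a
  rw [dg_ap, (e.iteratedFDeriv ℝ k).eq_of_nhds, iteratedFDeriv_add_apply (s3 _) (s4 _),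
    iteratedFDeriv_const_smul_apply s1, iteratedFDeriv_const_smul_apply s2]
  simp only [ContinuousMultilinearMap.add_apply, ContinuousMultilinearMap.smul_apply, smul_eq_mul]
  ring

lemma dg_eig (hg : GRP c) (h1 : ∀ z ∈ tsupport u, ∀ᶠ y in 𝓝 (pl z), g y = 1) {k : ℕ} {L : ℝ}
    (hL : 0 < L) (x' : Ix × (Fin k → Ix)) (z : V) : ∑ x : Ix × (Fin k → Ix),
      ((Bs L x'.1 x.1 * ∏ j, Bs L (x'.2 j) (x.2 j) : ℝ) : ℂ) * dg x.2 (Gc i g A B u x.1) z =
      (((Real.sqrt L)⁻¹ : ℝ) : ℂ) ^ k * dg x'.2 (Gc i g A B u x'.1) z := by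
  have hq : 0 < Real.sqrt L := Real.sqrt_pos.2 hL
  have a1 := eig hg hL (sm_p1 i hA z) (a := Real.sqrt L) (fun v => by simp [p1, mul_assoc]) x'.2
  have a2 := eig hg hL (sm_p2 hB z) (a := 1) (fun v => by simp [p2]) x'.2
  have a3 : ∑ n, Bs L x'.1 n * (eta n * va n) = (Real.sqrt L)⁻¹ * (eta x'.1 * va x'.1) := by
    have : be (Bs L x'.1) = (Real.sqrt L)⁻¹ * be (bas x'.1 1) := by simp [Bs_row hg hL]
    rw [← md_bas, md_va, ← this, be, GF.mdot]
    exact Finset.sum_congr rfl fun n _ => by ring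
  have a4 : ∑ n, Bs L x'.1 n * (eta n * ex i n) = eta x'.1 * ex i x'.1 := by
    have : tx (Bs L x'.1) i = tx (bas x'.1 1) i := by
      simp [Bs_row hg hL, inv_mul_cancel_left₀ hq.ne']
    rw [← md_bas, md_ex, ← this, ← md_ex, GF.mdot]
    exact Finset.sum_congr rfl fun n _ => by ring
  have a5 := congrArg (fun t : ℝ => (t : ℂ)) a3
  have a6 := congrArg (fun t : ℝ => (t : ℂ)) a4
  have hq' : (Real.sqrt L : ℂ) ≠ 0 := Complex.ofReal_ne_zero.2 hq.ne'
  simp only [dg_Gc hg' hA hB hu h1, Fintype.sum_prod_type]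
  calc _ = u z * ((∑ n, ((Bs L x'.1 n * (eta n * va n) : ℝ) : ℂ)) * ∑ γ : Fin k → Ix,
        ((∏ j, Bs L (x'.2 j) (γ j) : ℝ) : ℂ) *
          iteratedFDeriv ℝ k (p1 i A z) 0 (fun j => bas (γ j) 1) +
        (∑ n, ((Bs L x'.1 n * (eta n * ex i n) : ℝ) : ℂ)) * ∑ γ : Fin k → Ix,
        ((∏ j, Bs L (x'.2 j) (γ j) : ℝ) : ℂ) *
          iteratedFDeriv ℝ k (p2 B z) 0 (fun j => bas (γ j) 1)) := by
        rw [Finset.sum_mul_sum, Finset.sum_mul_sum, ← Finset.sum_add_distrib, Finset.mul_sum]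
        refine Finset.sum_congr rfl fun n _ => ?_
        rw [← Finset.sum_add_distrib, Finset.mul_sum]
        refine Finset.sum_congr rfl fun γ _ => ?_
        push_cast
        ring
    _ = _ := by
        rw [a1, a2, ← Complex.ofReal_sum, ← Complex.ofReal_sum, a3, a4]
        push_cast
        field_simp

lemma dg_zero (h1 : ∀ z ∈ tsupport u, ∀ᶠ y in 𝓝 (pl z), g y = 1) (x : Ix × (Fin 0 → Ix))
    (z : V) : dg x.2 (Gc i g A B u x.1) z = ((eta x.1 * ex i x.1 * (B (be z) * u z) : ℝ) : ℂ) := by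
  simp [dg_Gc hg' hA hB hu h1, p1, p2]
  ring

lemma dg_one (h1 : ∀ z ∈ tsupport u, ∀ᶠ y in 𝓝 (pl z), g y = 1)
    (h2 : ∀ z, deriv B (be z) * u z = A (be z) * u z) (x : Ix × (Fin 1 → Ix)) (z : V) :
    dg x.2 (Gc i g A B u x.1) z = (((eta x.1 * va x.1 * tx (bas (x.2 0) 1) i +
      eta x.1 * ex i x.1 * be (bas (x.2 0) 1)) * (A (be z) * u z) : ℝ) : ℂ) := by
  have d0 : HasFDerivAt (fun v : V => be z + be v) beL 0 := beL.hasFDerivAt.const_add _
  have d1 : HasFDerivAt (fun v : V => tx v i)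
      ((ContinuousLinearMap.proj (R := ℝ) (φ := fun _ : Fin 2 => ℝ) i).comp txL) 0 :=
    ((ContinuousLinearMap.proj (R := ℝ) (φ := fun _ : Fin 2 => ℝ) i).comp txL).hasFDerivAt
  have d2 := (tst_diff hA (be z + be 0)).hasFDerivAt.comp (0 : V) d0
  have d3 := (tst_diff hB (be z + be 0)).hasFDerivAt.comp (0 : V) d0
  have d4 := Complex.ofRealCLM.hasFDerivAt.comp (0 : V) (d1.mul d2)
  have d5 := Complex.ofRealCLM.hasFDerivAt.comp (0 : V) d3
  have e1 : ∀ v, fderiv ℝ (p1 i A z) 0 v = ((tx v i * A (be z) : ℝ) : ℂ) := fun v => by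
    erw [d4.fderiv]
    simp [mul_comm]
  have e2 : ∀ v, fderiv ℝ (p2 B z) 0 v = ((be v * deriv B (be z) : ℝ) : ℂ) := fun v => by
    erw [d5.fderiv]
    simp [fderiv_eq_smul_deriv]
  have e3 := congrArg (fun t : ℝ => (t : ℂ)) (h2 z)
  rw [dg_Gc hg' hA hB hu h1, iteratedFDeriv_one_apply, iteratedFDeriv_one_apply, e1, e2]
  push_cast at e3 ⊢
  linear_combination (eta x.1 * ex i x.1 * be (bas (x.2 0) 1) : ℂ) * e3

end

/-- the contact term of order `k` -/
def ct {k : ℕ} (O : (Fin (k + 3) → Ix) → Sch →L[ℂ] Completion D) (t : Ix × (Fin k → Ix) → Sch) :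
    Completion D := ∑ x : Ix × (Fin k → Ix), ∑ j, (eta j : ℂ) • O (ix3 x.1 (j, j) x.2) (t x)

lemma ct_bd {k : ℕ} {d : ℤ} {O : (Fin (k + 3) → Ix) → Sch →L[ℂ] Completion D}
    {q : (Fin (k + 3) → Ix) → V → ℂ} (h : Ov c d O q) (f : Sch) (a : Ix × (Fin k → Ix) → ℝ) :
    ∃ C : ℝ, 0 ≤ C ∧ ∀ (t : Ix × (Fin k → Ix) → Sch) (F : V → ℝ),
      (∀ x z, t x z = ((a x * F z : ℝ) : ℂ)) →
      ‖inner ℂ (c.Th (ev f)) (ct O t)‖ ≤ C * ∫ z, |F z| := by
  obtain ⟨C, h0, hC⟩ := h.bd f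
  refine ⟨∑ x, ∑ _j : Ix, C * |a x|, by positivity, fun t F ht => ?_⟩
  simp only [ct, inner_sum, inner_smul_right, Finset.sum_mul]
  refine (norm_sum_le _ _).trans (Finset.sum_le_sum fun x _ =>
    (norm_sum_le _ _).trans (Finset.sum_le_sum fun j _ => ?_))
  rw [norm_mul, Complex.norm_real, Real.norm_eq_abs, abs_eta, one_mul]
  refine (hC _ _).trans (le_of_eq ?_)
  simp only [ht, Complex.norm_real, Real.norm_eq_abs, abs_mul, integral_const_mul, mul_assoc]

lemma ct_zero (hg : GRP c) {k : ℕ} (hk : 2 ≤ k) {O : (Fin (k + 3) → Ix) → Sch →L[ℂ] Completion D}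
    {q : (Fin (k + 3) → Ix) → V → ℂ} (h : Ov c (5 - k) O q) (f : Sch)
    (t : Ix × (Fin k → Ix) → Sch) (ht : ∀ L : ℝ, 0 < L → ∀ (x' : Ix × (Fin k → Ix)) z,
      ∑ x : Ix × (Fin k → Ix), ((Bs L x'.1 x.1 * ∏ j, Bs L (x'.2 j) (x.2 j) : ℝ) : ℂ) * t x z =
        (((Real.sqrt L)⁻¹ : ℝ) : ℂ) ^ k * t x' z) : inner ℂ (c.Th (ev f)) (ct O t) = 0 := by
  have i1 : ∀ (x : Ix × (Fin k → Ix)) j, Integrable (fun p => (eta j : ℂ) *
      (q (ix3 x.1 (j, j) x.2) p * conj (ft (ev f) p) * ft (ev (t x)) p)) (volume.restrict Fc) :=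
    fun x j => (int_ft' (h.int _ f) _).const_mul _
  simp only [ct, inner_sum, inner_smul_right, h.rep, ← integral_const_mul]
  simp only [← integral_finset_sum _ fun j _ => i1 _ j]
  rw [← integral_finset_sum _ fun x _ => integrable_finset_sum _ fun j _ => i1 x j]
  refine integral_eq_zero_of_ae (ae_of_all _ fun p => ?_)
  have := weight hg hk h (fun x => ft (ev (t x)) p) (fun L hL x' => by
    simp only [← ft_mul]
    have tt : ∀ (a : ℂ) (g : Sch), IsTest fun z => a * ev g z := fun a g => ⟨a • g, rfl⟩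
    rw [← ft_sum _ fun x _ => tt _ (t x)]
    congr 1
    exact funext (ht L hL x')) p
  have e := congrArg (fun y => conj (ft (ev f) p) * y) this
  simp only [mul_zero, Finset.mul_sum] at e
  simp only [Pi.zero_apply]
  rw [← e]
  exact Finset.sum_congr rfl fun x _ => Finset.sum_congr rfl fun j _ => by ring

variable {w : I2 → I2 → S2 →L[ℂ] Completion D}

/-- **The contact terms are small for thin test functions.** -/
theorem contact (hg : GRP c) (hs : STRUCT c) (hp : POLY c) (hw : TP2 c.Q c.T false w) (i : Fin 2)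
    {f : Fn} (hf : IsTest f) : ∃ C : ℝ, 0 ≤ C ∧ ∀ (g : P3 → ℝ) (A B : ℝ → ℝ) (u : V → ℝ),
      Tst g → Tst A → Tst B → Tst u → (∀ z ∈ tsupport u, ∀ᶠ y in 𝓝 (pl z), g y = 1) →
      (∀ z, deriv B (be z) * u z = A (be z) * u z) →
      ‖inner ℂ (dvT w va (PP (rp (xm i g) A) u) - dvT w va (PP (rp g A) (xv i u)) +
        dvT w (ex i) (PP (rp g B) u)) (c.Th f)‖ ≤
        C * ((∫ z, |A (be z) * u z|) + ∫ z, |B (be z) * u z|) := by
  obtain ⟨f, rfl⟩ := hf
  obtain ⟨k0, O, h1, -, h3⟩ := hs false w hw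
  have hq : ∀ k : ℕ, ∃ q, Ov c (5 - k) (O k) q := fun k =>
    ex_ov hp (by simpa using h1 k) ⟨1 - k, by push_cast; ring⟩
  choose q hq using hq
  obtain ⟨C0, b0, hC0⟩ := ct_bd (hq 0) f fun x => eta x.1 * ex i x.1
  obtain ⟨C1, b1, hC1⟩ := ct_bd (hq 1) f fun x => eta x.1 * va x.1 * tx (bas (x.2 0) 1) i +
    eta x.1 * ex i x.1 * be (bas (x.2 0) 1)
  refine ⟨C0 + C1, by positivity, fun g A B u hg' hA hB hu e1 e2 => ?_⟩
  set a : ℕ → ℂ := fun k => (k.factorial : ℂ)⁻¹ *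
    inner ℂ (c.Th (ev f)) (ct (O k) fun x => dg x.2 (Gc i g A B u x.1)) with ha
  have e : dvT w va (PP (rp (xm i g) A) u) - dvT w va (PP (rp g A) (xv i u)) +
      dvT w (ex i) (PP (rp g B) u) = ∑ k ∈ Finset.range (k0 + 1),
        (k.factorial : ℂ)⁻¹ • ct (O k) fun x => dg x.2 (Gc i g A B u x.1) := by
    calc _ = ∑ n, ∑ j, (eta j : ℂ) • dvL w n (j, j) (Gc i g A B u n) := by
          simp only [dvT, Gc, map_add, map_smul, map_sub, smul_add, smul_sub, smul_smul,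
            Finset.sum_add_distrib, Finset.sum_sub_distrib, Complex.ofReal_mul, mul_comm]
      _ = _ := by
          simp only [dvL_ap, h3 _ _ _ (Gc_cs hg' hA hB hu _), ct, Fintype.sum_prod_type,
            Finset.smul_sum]
          symm
          rw [Finset.sum_comm]
          refine Finset.sum_congr rfl fun n _ => ?_
          symm
          rw [Finset.sum_comm]
          refine Finset.sum_congr rfl fun k _ => ?_
          rw [Finset.sum_comm]
          exact Finset.sum_congr rfl fun γ _ => Finset.sum_congr rfl fun j _ => smul_comm _ _ _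
  have z2 : ∀ k, ‖a (k + 1 + 1)‖ = 0 := fun k => by
    simp only [ha]
    rw [ct_zero hg (by omega) (hq _) f _ fun L hL x' z => dg_eig hg' hA hB hu hg e1 hL x' z]
    simp
  have n0 : 0 ≤ ∫ z, |A (be z) * u z| := integral_nonneg fun _ => abs_nonneg _
  have n1 : 0 ≤ ∫ z, |B (be z) * u z| := integral_nonneg fun _ => abs_nonneg _
  have u0 := hC0 _ _ (dg_zero hg' hA hB hu e1 (i := i))
  have u1 := hC1 _ _ (dg_one hg' hA hB hu e1 e2 (i := i))
  rw [norm_inner_symm, e, inner_sum]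
  simp only [inner_smul_right]
  calc _ ≤ ∑ k ∈ Finset.range (k0 + 1), ‖a k‖ := norm_sum_le _ _
    _ ≤ ∑ k ∈ Finset.range (k0 + 1 + 1), ‖a k‖ := Finset.sum_le_sum_of_subset_of_nonneg
        (Finset.range_subset_range.2 (by omega)) fun _ _ _ => norm_nonneg _
    _ = ‖a 1‖ + ‖a 0‖ := by
        rw [Finset.sum_range_succ', Finset.sum_range_succ']
        simp [z2]
    _ ≤ _ := by
        simp only [ha, Nat.factorial_one, Nat.factorial_zero, Nat.cast_one, inv_one, one_mul]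
        nlinarith [mul_nonneg b0 n0, mul_nonneg b1 n1]

end

end Vale.Agent.P352X.Conm
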